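import Vale.Agent.P167.FKA.Basic

/-!
# P167, general `q`, block Q-LAM (S2): comparison of radii without alternation, abstract form

Local factors `T j` at the scales `j = 0, …, J` (`T J` is the smallest box) and the numbers `N j` of the
large strands at these scales. If `T j` is at most `exp (s N (j+1)) T (j+1)`, not much smaller than
`exp (- s/4 N (j+1)) T (j+1)` in mean, and `N j` does not read the box of `T (j+1)`, then the
exponential moments of `N j` with respect to `T j` are bounded uniformly in `j`.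
-/

namespace Vale.Agent.P167.H601.S2

open Finset Vale.Agent.P167.FK Vale.Agent.P167.FKA

variable {Q : ℝ} {D : Finset (ℤ × ℤ)} {η : Cfg}

/-- Cauchy-Schwarz with a weight. -/
theorem ex_cs (hQ : 0 < Q) {T : Cfg → ℝ} (hT : ∀ ω, 0 ≤ T ω) (f g : Cfg → ℝ) :
    Ex Q D η (fun ω => T ω * (f ω * g ω)) ^ 2 ≤
      Ex Q D η (fun ω => T ω * f ω ^ 2) * Ex Q D η (fun ω => T ω * g ω ^ 2) := by
  have h : ∀ t : ℝ, 0 ≤ Ex Q D η (fun ω => T ω * g ω ^ 2) * (t * t) +
      (-2 * Ex Q D η (fun ω => T ω * (f ω * g ω))) * t + Ex Q D η (fun ω => T ω * f ω ^ 2) := by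
    intro t
    have h1 : 0 ≤ Ex Q D η (fun ω => T ω * (f ω - t * g ω) ^ 2) :=
      Ex_nonneg hQ fun S _ => mul_nonneg (hT _) (sq_nonneg _)
    have h2 : Ex Q D η (fun ω => T ω * (f ω - t * g ω) ^ 2) =
        Ex Q D η (fun ω => T ω * f ω ^ 2 - (2 * t) * (T ω * (f ω * g ω)) +
          (t * t) * (T ω * g ω ^ 2)) := by
      refine Ex_congr fun S _ => ?_
      ring
    rw [h2, Ex_add, Ex_sub, Ex_mul_left, Ex_mul_left] at h1
    linarith
  have h4 := discrim_le_zero h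
  unfold discrim at h4
  linarith

/-- Jensen's inequality for `exp (- s N / 4)`. -/
theorem ex_jensen (hQ : 0 < Q) {T : Cfg → ℝ} (hT : ∀ ω, 0 ≤ T ω) {N : Cfg → ℝ} {s Y : ℝ}
    (hY : 1 ≤ Y) (h : Ex Q D η (fun ω => T ω * Real.exp (s * N ω)) ≤ Y ^ 4 * Ex Q D η T) :
    Ex Q D η T ≤ Y * Ex Q D η (fun ω => T ω * Real.exp (-(s / 4 * N ω))) := by
  have hY0 : 0 < Y := by linarith
  -- the tangent line
  have key : ∀ y : ℝ, 5 / 4 - Real.exp y / (4 * Y ^ 4) ≤ Y * Real.exp (-(y / 4)) := by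
    intro y
    have hlog : Real.log (Y ^ 4) = 4 * Real.log Y := by
      rw [Real.log_pow]; norm_num
    have h1 : Real.exp y = Y ^ 4 * Real.exp (y - 4 * Real.log Y) := by
      rw [← hlog, Real.exp_sub, Real.exp_log (by positivity)]
      field_simp
    have h2 : Y * Real.exp (-(y / 4)) = Real.exp (-((y - 4 * Real.log Y) / 4)) := by
      have : -((y - 4 * Real.log Y) / 4) = Real.log Y + -(y / 4) := by ring
      rw [this, Real.exp_add, Real.exp_log hY0]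
    have h3 := Real.add_one_le_exp (y - 4 * Real.log Y)
    have h4 := Real.add_one_le_exp (-((y - 4 * Real.log Y) / 4))
    rw [h1, h2]
    have h5 : Y ^ 4 * Real.exp (y - 4 * Real.log Y) / (4 * Y ^ 4) =
        Real.exp (y - 4 * Real.log Y) / 4 := by
      field_simp
    rw [h5]
    linarith
  have h1 : Ex Q D η (fun ω => 5 / 4 * T ω - 1 / (4 * Y ^ 4) * (T ω * Real.exp (s * N ω))) ≤
      Ex Q D η (fun ω => Y * (T ω * Real.exp (-(s / 4 * N ω)))) := by
    refine Ex_mono hQ fun S _ => ?_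
    have h2 := mul_le_mul_of_nonneg_left (key (s * N (cf D η S))) (hT (cf D η S))
    have h3 : s / 4 * N (cf D η S) = s * N (cf D η S) / 4 := by ring
    rw [h3]
    calc 5 / 4 * T (cf D η S) - 1 / (4 * Y ^ 4) * (T (cf D η S) * Real.exp (s * N (cf D η S)))
        = T (cf D η S) * (5 / 4 - Real.exp (s * N (cf D η S)) / (4 * Y ^ 4)) := by
          field_simp
      _ ≤ T (cf D η S) * (Y * Real.exp (-(s * N (cf D η S) / 4))) := h2
      _ = _ := by ring
  rw [Ex_sub, Ex_mul_left, Ex_mul_left, Ex_mul_left] at h1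
  have h2 : 1 / (4 * Y ^ 4) * Ex Q D η (fun ω => T ω * Real.exp (s * N ω)) ≤
      1 / (4 * Y ^ 4) * (Y ^ 4 * Ex Q D η T) := mul_le_mul_of_nonneg_left h (by positivity)
  have h3 : 1 / (4 * Y ^ 4) * (Y ^ 4 * Ex Q D η T) = 1 / 4 * Ex Q D η T := by
    field_simp
  linarith

/-- **(S2), one step.** -/
theorem step (hQ : 0 < Q) {T T' N N' : Cfg → ℝ} {s M C1 Y : ℝ} (hT' : ∀ ω, 0 ≤ T' ω)
    (hC1 : 1 ≤ C1) (hY : 1 ≤ Y) (hM0 : 0 ≤ M) (hM : C1 ^ 2 * M ≤ Y ^ 2)
    (hup : ∀ ω, T ω ≤ Real.exp (s / 2 * N' ω) * T' ω)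
    (hlow : Ex Q D η (fun ω => T' ω * Real.exp (-(s / 4 * N' ω))) ≤ C1 * Ex Q D η T)
    (hmom : Ex Q D η (fun ω => T' ω * Real.exp (2 * s * N ω)) ≤ M * Ex Q D η T')
    (h : Ex Q D η (fun ω => T' ω * Real.exp (s * N' ω)) ≤ Y ^ 4 * Ex Q D η T') :
    Ex Q D η (fun ω => T ω * Real.exp (s * N ω)) ≤ Y ^ 4 * Ex Q D η T ∧
      Ex Q D η T' ≤ C1 * Y * Ex Q D η T := by
  have hY0 : 0 < Y := by linarith
  have he' : 0 ≤ Ex Q D η T' := Ex_nonneg hQ fun _ _ => hT' _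
  have h1 : Ex Q D η T' ≤ C1 * Y * Ex Q D η T := by
    refine (ex_jensen hQ hT' hY h).trans ?_
    have := mul_le_mul_of_nonneg_left hlow hY0.le
    linarith
  refine ⟨?_, h1⟩
  -- Cauchy-Schwarz
  have h2 : Ex Q D η (fun ω => T ω * Real.exp (s * N ω)) ≤
      Ex Q D η (fun ω => T' ω * (Real.exp (s / 2 * N' ω) * Real.exp (s * N ω))) := by
    refine Ex_mono hQ fun S _ => ?_
    have := mul_le_mul_of_nonneg_right (hup (cf D η S)) (Real.exp_pos (s * N (cf D η S))).le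
    calc _ ≤ _ := this
      _ = _ := by ring
  have h3 := ex_cs (Q := Q) (D := D) (η := η) hQ hT' (fun ω => Real.exp (s / 2 * N' ω))
    (fun ω => Real.exp (s * N ω))
  have e1 : (fun ω => T' ω * Real.exp (s / 2 * N' ω) ^ 2) =
      fun ω => T' ω * Real.exp (s * N' ω) := by
    funext ω
    rw [← Real.exp_nat_mul]
    congr 2
    push_cast
    ring
  have e2 : (fun ω => T' ω * Real.exp (s * N ω) ^ 2) =
      fun ω => T' ω * Real.exp (2 * s * N ω) := by
    funext ω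
    rw [← Real.exp_nat_mul]
    congr 2
    push_cast
    ring
  rw [e1, e2] at h3
  set X := Ex Q D η (fun ω => T' ω * (Real.exp (s / 2 * N' ω) * Real.exp (s * N ω))) with hX
  have h4 : X ^ 2 ≤ (Y ^ 4 * Ex Q D η T') * (M * Ex Q D η T') := by
    refine h3.trans (mul_le_mul h hmom ?_ (by positivity))
    exact Ex_nonneg hQ fun _ _ => mul_nonneg (hT' _) (Real.exp_pos _).le
  have heT : 0 ≤ Ex Q D η T := by
    by_contra hneg
    push Not at hneg
    have h5 : C1 * Y * Ex Q D η T < 0 := mul_neg_of_pos_of_neg (by positivity) hneg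
    linarith
  have h5 : X ^ 2 ≤ (Y ^ 4 * Ex Q D η T) ^ 2 := by
    have h6 : Ex Q D η T' * Ex Q D η T' ≤ (C1 * Y * Ex Q D η T) * (C1 * Y * Ex Q D η T) :=
      mul_le_mul h1 h1 he' (he'.trans h1)
    calc X ^ 2 ≤ (Y ^ 4 * Ex Q D η T') * (M * Ex Q D η T') := h4
      _ = Y ^ 4 * M * (Ex Q D η T' * Ex Q D η T') := by ring
      _ ≤ Y ^ 4 * M * ((C1 * Y * Ex Q D η T) * (C1 * Y * Ex Q D η T)) :=
          mul_le_mul_of_nonneg_left h6 (by positivity)
      _ = (C1 ^ 2 * M) * (Y ^ 6 * Ex Q D η T ^ 2) := by ring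
      _ ≤ Y ^ 2 * (Y ^ 6 * Ex Q D η T ^ 2) := mul_le_mul_of_nonneg_right hM (by positivity)
      _ = (Y ^ 4 * Ex Q D η T) ^ 2 := by ring
  exact h2.trans (abs_le_of_sq_le_sq' h5 (by positivity)).2

/-- **(S2).** -/
theorem radii (hQ : 0 < Q) (J : ℕ) {T N : ℕ → Cfg → ℝ} {s M C1 Y : ℝ} (hT : ∀ j ω, 0 ≤ T j ω)
    (hC1 : 1 ≤ C1) (hY : 1 ≤ Y) (hM0 : 0 ≤ M) (hM : C1 ^ 2 * M ≤ Y ^ 2)
    (hup : ∀ j < J, ∀ ω, T j ω ≤ Real.exp (s / 2 * N (j + 1) ω) * T (j + 1) ω)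
    (hlow : ∀ j < J, Ex Q D η (fun ω => T (j + 1) ω * Real.exp (-(s / 4 * N (j + 1) ω))) ≤
      C1 * Ex Q D η (T j))
    (hmom : ∀ j < J, Ex Q D η (fun ω => T (j + 1) ω * Real.exp (2 * s * N j ω)) ≤
      M * Ex Q D η (T (j + 1)))
    (h0 : Ex Q D η (fun ω => T J ω * Real.exp (s * N J ω)) ≤ Y ^ 4 * Ex Q D η (T J)) :
    ∀ j ≤ J, Ex Q D η (fun ω => T j ω * Real.exp (s * N j ω)) ≤ Y ^ 4 * Ex Q D η (T j) ∧
      (j < J → Ex Q D η (T (j + 1)) ≤ C1 * Y * Ex Q D η (T j)) := by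
  have key : ∀ i ≤ J, Ex Q D η (fun ω => T (J - i) ω * Real.exp (s * N (J - i) ω)) ≤
      Y ^ 4 * Ex Q D η (T (J - i)) := by
    intro i
    induction i with
    | zero => exact fun _ => h0
    | succ i ih =>
      intro hi
      have h1 := ih (by omega)
      have e : J - i = J - (i + 1) + 1 := by omega
      rw [e] at h1
      exact (step hQ (hT _) hC1 hY hM0 hM (hup _ (by omega)) (hlow _ (by omega))
        (hmom _ (by omega)) h1).1
  intro j hj
  have h1 := key (J - j) (by omega)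
  rw [show J - (J - j) = j by omega] at h1
  refine ⟨h1, fun hlt => ?_⟩
  have h2 := key (J - (j + 1)) (by omega)
  rw [show J - (J - (j + 1)) = j + 1 by omega] at h2
  exact (step hQ (hT _) hC1 hY hM0 hM (hup _ hlt) (hlow _ hlt) (hmom _ hlt) h2).2

end Vale.Agent.P167.H601.S2
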