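import Vale.Agent.P167.H601.S2.Cst

/-!
# P167, general `q`, block Q-LAM (S2): comparison of the products of the local factors at two scales
-/

namespace Vale.Agent.P167.H601.S2

open Finset
open Vale.Agent.P167.E6 (IsPolygon Encloses)
open Vale.Agent.P167.BR
open Vale.Agent.P167.FK (Bq Ex Good RSW cf)
open Vale.Agent.P167.FKA (Loc Ex_mono Ex_congr Ex_const Ex_mul_left Ex_nonneg)
open Vale.Agent.P167.H562.QM (MajA OneC)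
open Vale.Agent.P167.H975 (TX TX_loc)
open Vale.Agent.P167.H601.LG

variable {θ : ℝ}

theorem TX_nonneg {w : Finset Ed → ℝ} {D : Finset (ℤ × ℤ)} {c : ℤ × ℤ} {r : ℤ} {ω : Cfg}
    (h : ∀ A ∈ pcs ω D, (∀ e ∈ A, hdv e ∈ Bq c r) → 0 ≤ w A) : 0 ≤ TX w D c r ω := by
  unfold TX
  refine prod_nonneg fun A hA => ?_
  rw [mem_filter] at hA
  exact h A hA.1 hA.2

/-- The product of the local factors over the points. -/
noncomputable def PT (θ β : ℝ) {N : ℕ} (q : ZMod N → ℤ × ℤ) (D : Finset (ℤ × ℤ)) (k : ℕ)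
    (τ : ℕ → ℤ) (P : Finset ℕ) (r : ℤ) (ω : Cfg) : ℝ :=
  ∏ j ∈ P, TX (wJ θ β q D k τ) D (q (j : ZMod N)) r ω

theorem TT_eq (θ β : ℝ) {N : ℕ} (q : ZMod N → ℤ × ℤ) (D : Finset (ℤ × ℤ)) (k : ℕ)
    (τ : ℕ → ℤ) (I : ℤ → Cfg → ℝ) (P : Finset ℕ) (r : ℤ) (ω : Cfg) :
    TT θ β q D k τ I P r ω = I r ω * PT θ β q D k τ P r ω := rfl

/-- Lower bound of the weights around the points. -/
def Wl (θ β : ℝ) {N : ℕ} (q : ZMod N → ℤ × ℤ) (D : Finset (ℤ × ℤ)) (k : ℕ) (τ : ℕ → ℤ)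
    (P : Finset ℕ) (c0 : ℝ) (r : ℤ) : Prop := ∀ j ∈ P, ∀ ω, ∀ A ∈ pcs ω D,
  (∀ e ∈ A, hdv e ∈ Bq (q (j : ZMod N)) r) → c0 ≤ wJ θ β q D k τ A

theorem Wl.mono {β : ℝ} {N : ℕ} {q : ZMod N → ℤ × ℤ} {D : Finset (ℤ × ℤ)} {k : ℕ} {τ : ℕ → ℤ}
    {P : Finset ℕ} {c0 : ℝ} {r r' : ℤ} (h : Wl θ β q D k τ P c0 r) (h' : r' ≤ r) :
    Wl θ β q D k τ P c0 r' := fun j hj ω A hA hA' =>
  h j hj ω A hA fun e he => Bq_sub h' (hA' e he)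

theorem Wl.nonneg {β : ℝ} {N : ℕ} {q : ZMod N → ℤ × ℤ} {D : Finset (ℤ × ℤ)} {k : ℕ} {τ : ℕ → ℤ}
    {P : Finset ℕ} {c0 : ℝ} {r : ℤ} (h : Wl θ β q D k τ P c0 r) (hc0 : 0 ≤ c0) {j : ℕ}
    (hj : j ∈ P) (ω : Cfg) : 0 ≤ TX (wJ θ β q D k τ) D (q (j : ZMod N)) r ω :=
  TX_nonneg fun A hA hA' => hc0.trans (h j hj ω A hA hA')

theorem Wl.pnonneg {β : ℝ} {N : ℕ} {q : ZMod N → ℤ × ℤ} {D : Finset (ℤ × ℤ)} {k : ℕ}
    {τ : ℕ → ℤ} {P : Finset ℕ} {c0 : ℝ} {r : ℤ} (h : Wl θ β q D k τ P c0 r) (hc0 : 0 ≤ c0)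
    (ω : Cfg) : 0 ≤ PT θ β q D k τ P r ω :=
  prod_nonneg fun _ hj => h.nonneg hc0 hj ω

section two

variable {n N L k : ℕ} {m₀ : ℤ} {q : ZMod N → ℤ × ℤ} {D : Finset (ℤ × ℤ)} {τ : ℕ → ℤ}
  {η : Cfg} {β c0 s : ℝ} {P : Finset ℕ} {r r' : ℤ}

/-- **Two scales, from above.** -/
theorem PT_up (h0 : 0 < θ) (h1 : θ ≤ Real.pi / 3) (hS : Sit n N L m₀ q D k τ η)
    (hs0 : 1 / Real.sin θ + 1 / Real.sin (2 * θ) ≤ Real.exp (s / 2)) (hc0 : 0 < c0)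
    (hP : ∀ j ∈ P, j < N ∧ Spe τ k j) (hr'r : r' ≤ r) (hr : 6 * r < n) (hrL : 4 * r < L)
    (hw : Wl θ β q D k τ P c0 r) (ω : Cfg) {Nf : ℕ → ℕ}
    (hM : ∀ j ∈ P, MajA (Bq (q (j : ZMod N)) r) ((r' : ℝ) / 16) ω (Nf j)) :
    PT θ β q D k τ P r ω ≤ Real.exp (s / 2 * ((∑ j ∈ P, Nf j : ℕ) : ℝ)) *
      PT θ β q D k τ P r' ω := by
  have hA0 := one_le_A0 h0 h1
  obtain ⟨A0, hA0d⟩ : ∃ A0 : ℝ, A0 = 1 / Real.sin θ + 1 / Real.sin (2 * θ) := ⟨_, rfl⟩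
  rw [← hA0d] at hA0 hs0
  have hwA : ∀ A ∈ pcs ω D, wJ θ β q D k τ A ≤ A0 := fun A hA => by
    rw [hA0d]
    exact (le_abs_self _).trans (abs_wJ_le h0 h1 hS.poly hS.enc hA)
  have hexpA : ∀ m : ℕ, A0 ^ m ≤ Real.exp (s / 2 * (m : ℝ)) := by
    intro m
    rw [mul_comm, Real.exp_nat_mul]
    exact pow_le_pow_left₀ (by linarith) hs0 m
  unfold PT
  calc ∏ j ∈ P, TX (wJ θ β q D k τ) D (q (j : ZMod N)) r ω
      ≤ ∏ j ∈ P, (A0 ^ Nf j * TX (wJ θ β q D k τ) D (q (j : ZMod N)) r' ω) := by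
        refine prod_le_prod (fun j hj => hw.nonneg hc0.le hj ω) fun j hj => ?_
        exact TX_up h0 h1 hS.geo hS.poly hS.enc hS.sep (hP j hj).1 (hP j hj).2 hr'r hr hrL
          hA0 (fun A hA h => hc0.le.trans (hw j hj ω A hA h)) hwA (hM j hj)
    _ = A0 ^ (∑ j ∈ P, Nf j) * ∏ j ∈ P, TX (wJ θ β q D k τ) D (q (j : ZMod N)) r' ω := by
        rw [prod_mul_distrib, prod_pow_eq_pow_sum]
    _ ≤ _ := mul_le_mul_of_nonneg_right (hexpA _)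
        (prod_nonneg fun j hj => (hw.mono hr'r).nonneg hc0.le hj ω)

/-- **Two scales, from below.** -/
theorem PT_low (h0 : 0 < θ) (h1 : θ ≤ Real.pi / 3) (hS : Sit n N L m₀ q D k τ η)
    (hc0 : 0 < c0) (hc1 : c0 ≤ 1) (hs1 : Real.exp (-(s / 4)) ≤ c0)
    (hP : ∀ j ∈ P, j < N ∧ Spe τ k j) (hr'r : r' ≤ r) (hr : 6 * r < n) (hrL : 4 * r < L)
    (hw : Wl θ β q D k τ P c0 r) (ω : Cfg) {Nf : ℕ → ℕ}
    (hM : ∀ j ∈ P, MajA (Bq (q (j : ZMod N)) r) ((r' : ℝ) / 16) ω (Nf j)) :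
    Real.exp (-(s / 4 * ((∑ j ∈ P, Nf j : ℕ) : ℝ))) * PT θ β q D k τ P r' ω ≤
      PT θ β q D k τ P r ω := by
  have hexpc : ∀ m : ℕ, Real.exp (-(s / 4 * (m : ℝ))) ≤ c0 ^ m := by
    intro m
    have h3 : -(s / 4 * (m : ℝ)) = m * (-(s / 4)) := by ring
    rw [h3, Real.exp_nat_mul]
    exact pow_le_pow_left₀ (Real.exp_pos _).le hs1 m
  unfold PT
  calc Real.exp (-(s / 4 * ((∑ j ∈ P, Nf j : ℕ) : ℝ))) *
        ∏ j ∈ P, TX (wJ θ β q D k τ) D (q (j : ZMod N)) r' ω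
      ≤ c0 ^ (∑ j ∈ P, Nf j) * ∏ j ∈ P, TX (wJ θ β q D k τ) D (q (j : ZMod N)) r' ω :=
        mul_le_mul_of_nonneg_right (hexpc _)
          (prod_nonneg fun j hj => (hw.mono hr'r).nonneg hc0.le hj ω)
    _ = ∏ j ∈ P, (c0 ^ Nf j * TX (wJ θ β q D k τ) D (q (j : ZMod N)) r' ω) := by
        rw [prod_mul_distrib, prod_pow_eq_pow_sum]
    _ ≤ _ := by
        refine prod_le_prod (fun j hj => mul_nonneg (pow_nonneg hc0.le _)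
          ((hw.mono hr'r).nonneg hc0.le hj ω)) fun j hj => ?_
        exact TX_low h0 h1 hS.geo hS.poly hS.enc hS.sep (hP j hj).1 (hP j hj).2 hr'r hr hrL
          hc0 hc1 (fun A hA h => hw j hj ω A hA h) (hM j hj)

/-- The product does not read the boxes far from the points. -/
theorem PT_off {cI : ℤ × ℤ} {x : ℤ} (hf : ∀ j ∈ P, x + r < nm (q (j : ZMod N) - cI)) :
    Off D (fun v => nm (v - cI) ≤ x) (PT θ β q D k τ P r) := by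
  intro ω ω' hh
  unfold PT
  refine prod_congr rfl fun i hi => ?_
  refine TX_loc _ _ _ _ ω ω' fun v hv => hh v ?_
  rintro ⟨-, hv2⟩
  have h5 := nm_of_Bq (mem_inter.1 hv).1
  have h6 := nm_tri' (q (i : ZMod N)) v cI
  have h7 := hf i hi
  have h8 := nm_comm (q (i : ZMod N)) v
  omega

end two

end Vale.Agent.P167.H601.S2
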