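import Vale.Agent.P167.H601.S2.Rad

/-!
# P167, general `q`, block Q-LAM (S2): the numbers of the large segments at the scales
-/

namespace Vale.Agent.P167.H601.S2

open Finset
open Vale.Agent.P167.E6 (IsPolygon Encloses)
open Vale.Agent.P167.BR
open Vale.Agent.P167.FK (Bq Ex Good RSW cf)
open Vale.Agent.P167.FKA (Loc Ex_mono Ex_congr Ex_const Ex_mul_left Ex_nonneg)
open Vale.Agent.P167.H562.QM (MajA OneC)
open Vale.Agent.P167.H975 (TX TX_loc)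
open Vale.Agent.P167.H506.Q (maj_small)
open Vale.Agent.P167.H601.LG

/-- The constants: `ε ρ` is the excluded radius, `2 E` the ratio of the radii. -/
def Cn (Q ε : ℝ) (E : ℕ) (s C ρ0 : ℝ) : Prop := ∀ ρ : ℝ, ρ0 ≤ ρ → ∀ (c : ℤ × ℤ) (Z : ℤ),
  (Z : ℝ) ≤ 2 * E * ρ → ∃ N : Cfg → ℕ,
      (∀ ω ω' : Cfg, (∀ v, Rg c (ε * ρ) (1 / 16 * ρ + Z) v → ω v = ω' v) → N ω = N ω') ∧
      (∀ ω, MajA (Bq c Z) (ρ / 16) ω (N ω)) ∧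
      ∀ (D : Finset (ℤ × ℤ)) (η : Cfg), Good η →
        (∀ (y : ℤ × ℤ) (a : ℤ), 1 ≤ a → (a : ℝ) ≤ ρ / 64 → (nm (y - c) : ℝ) ≤ 1 / 16 * ρ + Z →
          OneC y a D η) →
        ∀ G : Cfg → ℝ, (∀ ω, 0 ≤ G ω) → Off D (Rg c (ε * ρ) (1 / 16 * ρ + Z)) G →
        Ex Q D η (fun ω => G ω * Real.exp (s * (N ω : ℝ))) ≤ C * Ex Q D η G

theorem exists_cn {Q : ℝ} (hQ : 1 ≤ Q) (hR : RSW Q) (s : ℝ) (E0 : ℕ) :
    ∃ (ε : ℝ) (E : ℕ) (C ρ0 : ℝ), 0 < ε ∧ E0 ≤ E ∧ 2 ≤ E ∧ 1 ≤ ε * E ∧ 0 < C ∧ 0 < ρ0 ∧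
      Cn Q ε E s C ρ0 := by
  obtain ⟨e1, he1, H⟩ := num_pt hQ hR
  have hs2 : 0 < 1 + |s| := by positivity
  obtain ⟨E, hE⟩ := exists_nat_ge (16 * (1 + |s|) / e1 + 2 + E0)
  have h16 : 0 ≤ 16 * (1 + |s|) / e1 := by positivity
  have hE00 : (0 : ℝ) ≤ E0 := Nat.cast_nonneg _
  have hE2 : (2 : ℝ) ≤ E := by linarith
  have hE0 : E0 ≤ E := by
    have : (E0 : ℝ) ≤ E := by linarith
    exact_mod_cast this
  have hE2' : 2 ≤ E := by exact_mod_cast hE2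
  obtain ⟨C, ρ0, hC, hρ0, H⟩ := H (1 / 16) (2 * E) s (by norm_num) (by positivity)
  refine ⟨e1 * (1 / 16) / (1 + |s|), E, C, ρ0, by positivity, hE0, hE2', ?_, hC, hρ0, ?_⟩
  · have h3 : 16 * (1 + |s|) / e1 ≤ E := by linarith
    rw [div_le_iff₀ he1] at h3
    rw [div_mul_eq_mul_div, le_div_iff₀ hs2]
    linarith
  · intro ρ hρ c Z hZ
    obtain ⟨N, n1, n2, n3⟩ := H ρ hρ c Z hZ
    refine ⟨N, n1, fun ω => ?_, fun D η hη hone G hG0 hG => ?_⟩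
    · have := n2 ω
      rwa [one_div, inv_mul_eq_div] at this
    · refine n3 D η hη (fun y a ha ha' hy => hone y a ha ?_ hy) G hG0 hG
      linarith

/-- The number of large segments at one scale, for one point. -/
theorem num_one {Q ε : ℝ} {E : ℕ} {s C ρ0 : ℝ} (hC : Cn Q ε E s C ρ0) {n N L k : ℕ} {m₀ : ℤ}
    {q : ZMod N → ℤ × ℤ} {D : Finset (ℤ × ℤ)} {τ : ℕ → ℤ} {η : Cfg}
    (hS : Sit n N L m₀ q D k τ η) (i : ZMod N) {r ρ Z : ℤ} (hρ0 : ρ0 ≤ ρ) (hρ1 : 1 ≤ ρ)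
    (hρr : ρ ≤ r) (hZr : Z ≤ r) (hZρ : Z ≤ 2 * E * ρ) (hrm : 4 * r ≤ m₀) : ∃ Nf : Cfg → ℕ,
      (∀ ω, MajA (Bq (q i) Z) ((ρ : ℝ) / 16) ω (Nf ω)) ∧
      (∀ ω ω' : Cfg, (∀ v, Rg (q i) (ε * ρ) (1 / 16 * ρ + Z) v → ω v = ω' v) → Nf ω = Nf ω') ∧
      ∀ G : Cfg → ℝ, (∀ ω, 0 ≤ G ω) → Off D (Rg (q i) (ε * ρ) (1 / 16 * ρ + Z)) G →
        Ex Q D η (fun ω => G ω * Real.exp (s * (Nf ω : ℝ))) ≤ C * Ex Q D η G := by
  have hZρ' : (Z : ℝ) ≤ 2 * E * (ρ : ℝ) := by exact_mod_cast hZρ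
  obtain ⟨Nf, n1, n2, n3⟩ := hC (ρ : ℝ) hρ0 (q i) Z hZρ'
  refine ⟨Nf, n2, n1, fun G hG0 hG => ?_⟩
  refine n3 D η hS.good (fun y a ha ha' hy => ?_) G hG0 hG
  have h3 : (ρ : ℝ) ≤ r := by exact_mod_cast hρr
  have h4 : (Z : ℝ) ≤ r := by exact_mod_cast hZr
  have h5 : (1 : ℝ) ≤ ρ := by exact_mod_cast hρ1
  have h6 : (a : ℝ) ≤ r := by linarith
  have h7 : (nm (y - q i) : ℝ) ≤ 2 * r := by linarith
  have h6' : a ≤ r := by exact_mod_cast h6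
  have h7' : nm (y - q i) ≤ 2 * r := by exact_mod_cast h7
  refine hS.one y a ha (by omega) ?_
  obtain ⟨v, hv, hv'⟩ := exists_near hS.poly hS.enc i
  refine ⟨v, hv, ?_⟩
  have h8 := nm_tri' y (q i) v
  omega

/-- The deterministic number at the last scale. -/
theorem maj_last {x : ℤ × ℤ} {r Z : ℤ} {t : ℝ} (h : r ≤ Z) (ω : Cfg) :
    MajA (Bq x r) t ω (4 * (2 * Z.toNat) ^ 2) := by
  have h4 := maj_small (x := x) r t ω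
  intro 𝓕 k1 k2 k3
  refine (h4 𝓕 k1 k2 k3).trans ?_
  exact Nat.mul_le_mul_left 4 (Nat.pow_le_pow_left (Nat.mul_le_mul_left 2
    (Int.toNat_le_toNat h)) 2)

/-- The data of the scales `1, …, J - 1`. -/
def Mid (Q ε C s : ℝ) {N : ℕ} (q : ZMod N → ℤ × ℤ) (D : Finset (ℤ × ℤ)) (η : Cfg) (i : ℕ)
    (ρ Z : ℤ) (Nf : Cfg → ℕ) : Prop :=
  (∀ ω ω' : Cfg, (∀ v, Rg (q (i : ZMod N)) (ε * ρ) (1 / 16 * ρ + Z) v → ω v = ω' v) →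
    Nf ω = Nf ω') ∧
  ∀ G : Cfg → ℝ, (∀ ω, 0 ≤ G ω) → Off D (Rg (q (i : ZMod N)) (ε * ρ) (1 / 16 * ρ + Z)) G →
    Ex Q D η (fun ω => G ω * Real.exp (s * (Nf ω : ℝ))) ≤ C * Ex Q D η G

/-- The numbers at all the scales. -/
theorem nums {Q ε : ℝ} {E : ℕ} {s C ρ0 : ℝ} (hC : Cn Q ε E s C ρ0) (hE : 1 ≤ E)
    {n N L k : ℕ} {m₀ : ℤ}
    {q : ZMod N → ℤ × ℤ} {D : Finset (ℤ × ℤ)} {τ : ℕ → ℤ} {η : Cfg}
    (hS : Sit n N L m₀ q D k τ η) {r : ℤ} (hr : 0 ≤ r) (hrm : 4 * r ≤ m₀) {J : ℕ} {K : ℤ}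
    (hK1 : 1 ≤ K) (hKρ : ρ0 ≤ K) (hJK : K ≤ rr r E J) (hJE : rr r E J < E * K)
    {Z0 : ℕ} (hZ0 : Z0 = 4 * (2 * (2 * E * (E * K) : ℤ).toNat) ^ 2) :
    ∃ Nf : ℕ → ℕ → Cfg → ℕ,
      (∀ (i j : ℕ), j < J → ∀ ω, MajA (Bq (q (i : ZMod N)) (rr r E j)) ((rr r E (j + 1) : ℝ) / 16) ω
        (Nf i (j + 1) ω)) ∧
      (∀ (i j : ℕ), j + 1 < J → Mid Q ε C s q D η i (rr r E (j + 1)) (rr r E j) (Nf i (j + 1))) ∧
      ∀ i ω, Nf i J ω ≤ Z0 := by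
  have hρr : ∀ j, rr r E j ≤ r := fun j => by
    have := rr_anti hr E (Nat.zero_le j)
    rwa [rr_zero] at this
  have hρ1 : ∀ j ≤ J, 1 ≤ rr r E j := fun j hj => (hK1.trans hJK).trans (rr_anti hr E hj)
  have key : ∀ i j : ℕ, ∃ Nf : Cfg → ℕ,
      (j < J → ∀ ω, MajA (Bq (q (i : ZMod N)) (rr r E j)) ((rr r E (j + 1) : ℝ) / 16) ω (Nf ω)) ∧
      (j + 1 < J → Mid Q ε C s q D η i (rr r E (j + 1)) (rr r E j) Nf) ∧
      (J ≤ j + 1 → ∀ ω, Nf ω ≤ Z0) := by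
    intro i j
    rcases lt_trichotomy (j + 1) J with h | h | h
    · obtain ⟨Nf, n1, n2, n3⟩ := num_one hC hS (i : ZMod N) (r := r) (ρ := rr r E (j + 1))
        (Z := rr r E j) (by
          have h3 : K ≤ rr r E (j + 1) := hJK.trans (rr_anti hr E h.le)
          exact hKρ.trans (by exact_mod_cast h3)) (hρ1 _ h.le) (hρr _) (hρr _)
        (rr_up hE (hρ1 _ h.le)) hrm
      exact ⟨Nf, fun _ => n1, fun _ => ⟨n2, n3⟩, fun h' => by omega⟩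
    · refine ⟨fun _ => Z0, fun _ ω => ?_, fun h' => by omega, fun _ _ => le_rfl⟩
      rw [hZ0]
      refine maj_last ?_ ω
      refine (rr_up hE (hρ1 (j + 1) h.le)).trans ?_
      rw [h]
      exact mul_le_mul_of_nonneg_left hJE.le (by positivity)
    · exact ⟨fun _ => 0, fun h' => by omega, fun h' => by omega, fun _ _ => Nat.zero_le _⟩
  choose Nf hN1 hN2 hN3 using key
  rcases Nat.eq_zero_or_pos J with hJ | hJ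
  · exact ⟨fun _ _ _ => 0, fun i j h => by omega, fun i j h => by omega, fun _ _ => Nat.zero_le _⟩
  refine ⟨fun i j => Nf i (j - 1), fun i j h => ?_, fun i j h => ?_, fun i => ?_⟩
  · simpa using hN1 i j h
  · simpa using hN2 i j h
  · exact hN3 i (J - 1) (by omega)

end Vale.Agent.P167.H601.S2
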