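import Vale.Agent.P167.H601.LG.Sep
import Vale.Agent.P167.H975.LkB
import Vale.Agent.P167.H167.Crs
import Vale.Agent.P167.H398.Q.Mac

/-!
# P167, general `q`, block Q-LAM (S2): comparison of the local factors at two scales
-/

namespace Vale.Agent.P167.H601.S2

open Finset
open Vale.Agent.P167.E6 (IsPolygon Encloses)
open Vale.Agent.P167.BR
open Vale.Agent.P167.FK (Bq)
open Vale.Agent.P167.H562.QM (MajA)
open Vale.Agent.P167.H975 (TX)
open Vale.Agent.P167.H601.LG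

section prod

/-- Comparison of two products. -/
theorem prod_cmp {α : Type*} {S : Finset α} {w : α → ℝ} {P P' : α → Prop} [DecidablePred P]
    [DecidablePred P'] [DecidablePred fun A => (P A ∧ ¬ P' A) ∧ w A ≠ 1]
    (hPP : ∀ A ∈ S, P' A → P A) {A0 : ℝ} (hA0 : 1 ≤ A0)
    (hw0 : ∀ A ∈ S, P A → 0 ≤ w A) (hw1 : ∀ A ∈ S, P A → w A ≤ A0) {M : ℕ}
    (hM : (S.filter fun A => (P A ∧ ¬ P' A) ∧ w A ≠ 1).card ≤ M) :
    ∏ A ∈ S.filter P, w A ≤ A0 ^ M * ∏ A ∈ S.filter P', w A := by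
  classical
  have h1 : S.filter P = S.filter P' ∪ S.filter (fun A => P A ∧ ¬ P' A) := by
    ext A
    simp only [mem_filter, mem_union]
    have := hPP A
    tauto
  have h2 : Disjoint (S.filter P') (S.filter (fun A => P A ∧ ¬ P' A)) := by
    rw [disjoint_left]
    intro A hA hA'
    rw [mem_filter] at hA hA'
    exact hA'.2.2 hA.2
  rw [h1, prod_union h2, mul_comm]
  refine mul_le_mul_of_nonneg_right ?_ (prod_nonneg fun A hA => by
    rw [mem_filter] at hA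
    exact hw0 A hA.1 (hPP A hA.1 hA.2))
  rw [← prod_filter_mul_prod_filter_not (S.filter fun A => P A ∧ ¬ P' A) (fun A => w A ≠ 1)]
  have h3 : ∏ A ∈ (S.filter fun A => P A ∧ ¬ P' A).filter (fun A => ¬ w A ≠ 1), w A = 1 := by
    refine prod_eq_one fun A hA => ?_
    rw [mem_filter] at hA
    exact not_not.1 hA.2
  have h4 : (S.filter fun A => P A ∧ ¬ P' A).filter (fun A => w A ≠ 1) =
      S.filter fun A => (P A ∧ ¬ P' A) ∧ w A ≠ 1 := by
    ext A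
    simp only [mem_filter]
    tauto
  rw [h3, mul_one, h4]
  calc ∏ A ∈ S.filter (fun A => (P A ∧ ¬ P' A) ∧ w A ≠ 1), w A
      ≤ ∏ _A ∈ S.filter (fun A => (P A ∧ ¬ P' A) ∧ w A ≠ 1), A0 := by
        refine prod_le_prod (fun A hA => ?_) fun A hA => ?_
        · rw [mem_filter] at hA
          exact hw0 A hA.1 hA.2.1.1
        · rw [mem_filter] at hA
          exact hw1 A hA.1 hA.2.1.1
    _ = A0 ^ (S.filter (fun A => (P A ∧ ¬ P' A) ∧ w A ≠ 1)).card := prod_const _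
    _ ≤ A0 ^ M := pow_le_pow_right₀ hA0 hM

/-- Comparison of two products, from below. -/
theorem prod_cmp_low {α : Type*} {S : Finset α} {w : α → ℝ} {P P' : α → Prop} [DecidablePred P]
    [DecidablePred P'] [DecidablePred fun A => (P A ∧ ¬ P' A) ∧ w A ≠ 1]
    (hPP : ∀ A ∈ S, P' A → P A) {c0 : ℝ} (hc0 : 0 < c0) (hc1 : c0 ≤ 1)
    (hw0 : ∀ A ∈ S, P' A → 0 ≤ w A) (hw1 : ∀ A ∈ S, P A → ¬ P' A → c0 ≤ w A) {M : ℕ}
    (hM : (S.filter fun A => (P A ∧ ¬ P' A) ∧ w A ≠ 1).card ≤ M) :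
    c0 ^ M * ∏ A ∈ S.filter P', w A ≤ ∏ A ∈ S.filter P, w A := by
  classical
  have h1 : S.filter P = S.filter P' ∪ S.filter (fun A => P A ∧ ¬ P' A) := by
    ext A
    simp only [mem_filter, mem_union]
    have := hPP A
    tauto
  have h2 : Disjoint (S.filter P') (S.filter (fun A => P A ∧ ¬ P' A)) := by
    rw [disjoint_left]
    intro A hA hA'
    rw [mem_filter] at hA hA'
    exact hA'.2.2 hA.2
  rw [h1, prod_union h2, mul_comm (∏ A ∈ S.filter P', w A)]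
  refine mul_le_mul_of_nonneg_right ?_ (prod_nonneg fun A hA => by
    rw [mem_filter] at hA
    exact hw0 A hA.1 hA.2)
  rw [← prod_filter_mul_prod_filter_not (S.filter fun A => P A ∧ ¬ P' A) (fun A => w A ≠ 1)]
  have h3 : ∏ A ∈ (S.filter fun A => P A ∧ ¬ P' A).filter (fun A => ¬ w A ≠ 1), w A = 1 := by
    refine prod_eq_one fun A hA => ?_
    rw [mem_filter] at hA
    exact not_not.1 hA.2
  have h4 : (S.filter fun A => P A ∧ ¬ P' A).filter (fun A => w A ≠ 1) =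
      S.filter fun A => (P A ∧ ¬ P' A) ∧ w A ≠ 1 := by
    ext A
    simp only [mem_filter]
    tauto
  rw [h3, mul_one, h4]
  calc c0 ^ M ≤ c0 ^ (S.filter (fun A => (P A ∧ ¬ P' A) ∧ w A ≠ 1)).card :=
        pow_le_pow_of_le_one hc0.le hc1 hM
    _ = ∏ _A ∈ S.filter (fun A => (P A ∧ ¬ P' A) ∧ w A ≠ 1), c0 := (prod_const _).symm
    _ ≤ ∏ A ∈ S.filter (fun A => (P A ∧ ¬ P' A) ∧ w A ≠ 1), w A := by
        refine prod_le_prod (fun A _ => hc0.le) fun A hA => ?_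
        rw [mem_filter] at hA
        exact hw1 A hA.1 hA.2.1.1 hA.2.1.2

end prod

variable {N : ℕ} {q : ZMod N → ℤ × ℤ} {D : Finset (ℤ × ℤ)} {ω : Cfg} {τ : ℕ → ℤ}
  {n k L : ℕ} {θ β : ℝ}

theorem Bq_sub {x : ℤ × ℤ} {r r' : ℤ} (h : r' ≤ r) : Bq x r' ⊆ Bq x r := by
  intro v hv
  unfold Bq at *
  rw [mem_product, mem_Ico, mem_Ico] at *
  omega

/-- Special points are far from each other. -/
theorem spe_far (hG : GeoN n N q τ) (hS : SepL L N τ k) {i j : ℕ} (hi : i < N) (hj : j < N)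
    (hne : i ≠ j) (hsi : Spe τ k i) (hsj : Spe τ k j) {d : ℤ} (h1 : 3 * d < n) (h2 : 2 * d < L) :
    d < nm (q (i : ZMod N) - q (j : ZMod N)) := by
  by_contra hc
  push Not at hc
  have hd0 : 0 ≤ d := (H825.Reg.nm_nn _).trans hc
  rcases Nat.lt_or_gt_of_ne hne with h | h
  · obtain ⟨s1, s2⟩ := hS i j h hj hsi hsj
    rcases hG.near hi.le hj.le h1 hc with h3 | h3 <;>
      rcases abs_cases ((i : ℤ) - j) with ⟨a1, a2⟩ | ⟨a1, a2⟩ <;> rw [a1] at h3 <;> omega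
  · obtain ⟨s1, s2⟩ := hS j i h hi hsj hsi
    rcases hG.near hi.le hj.le h1 hc with h3 | h3 <;>
      rcases abs_cases ((i : ℤ) - j) with ⟨a1, a2⟩ | ⟨a1, a2⟩ <;> rw [a1] at h3 <;> omega

open Classical in
/-- The number of the strands between two scales. -/
theorem card_between (h0 : 0 < θ) (h1 : θ ≤ Real.pi / 3) (hG : GeoN n N q τ)
    (hq : IsPolygon q) (hD : Encloses q D) (hS : SepL L N τ k) {j : ℕ} (hj : j < N)
    (hsj : Spe τ k j) {r r' : ℤ} (hr'r : r' ≤ r) (hr : 6 * r < n) (hrL : 4 * r < L)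
    {M : ℕ} (hM : MajA (Bq (q (j : ZMod N)) r) ((r' : ℝ) / 16) ω M) :
    ((pcs ω D).filter fun A => ((∀ e ∈ A, hdv e ∈ Bq (q (j : ZMod N)) r) ∧
      ¬ ∀ e ∈ A, hdv e ∈ Bq (q (j : ZMod N)) r') ∧ wJ θ β q D k τ A ≠ 1).card ≤ M := by
  refine hM _ (fun A hA => ?_) (fun A hA B hB hne => ?_) fun A hA => ?_
  · rw [mem_filter] at hA
    exact H167.isSeg hA.1
  · rw [mem_filter] at hA hB
    rw [disjoint_left]
    intro e h1 h2
    exact hne (eq_of_mem_pcs hA.1 hB.1 h1 h2)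
  · rw [mem_filter] at hA
    obtain ⟨hA1, ⟨hA2, hA3⟩, hA4⟩ := hA
    obtain ⟨e, he⟩ := pcs_nonempty hA1
    refine ⟨⟨e, he, hA2 e he⟩, ?_⟩
    refine large_of_ne_one h0 h1 hG hq hD hA1 hA4 (r := r') (by omega) fun i hi hsi hin => ?_
    by_cases hij : i = j
    · subst hij
      exact hA3 hin
    · have h3 := spe_far hG hS hi hj hij hsi hsj (d := 2 * r) (by omega) (by omega)
      have h4 := nm_of_Bq (hin e he)
      have h5 := nm_of_Bq (hA2 e he)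
      have h6 := nm_tri' (q (i : ZMod N)) (hdv e) (q (j : ZMod N))
      have h7 := nm_comm (q (i : ZMod N)) (hdv e)
      omega

/-- **Two scales, from above.** -/
theorem TX_up (h0 : 0 < θ) (h1 : θ ≤ Real.pi / 3) (hG : GeoN n N q τ)
    (hq : IsPolygon q) (hD : Encloses q D) (hS : SepL L N τ k) {j : ℕ} (hj : j < N)
    (hsj : Spe τ k j) {r r' : ℤ} (hr'r : r' ≤ r) (hr : 6 * r < n) (hrL : 4 * r < L)
    {A0 : ℝ} (hA0 : 1 ≤ A0) (hw0 : ∀ A ∈ pcs ω D,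
      (∀ e ∈ A, hdv e ∈ Bq (q (j : ZMod N)) r) → 0 ≤ wJ θ β q D k τ A)
    (hw1 : ∀ A ∈ pcs ω D, wJ θ β q D k τ A ≤ A0) {M : ℕ}
    (hM : MajA (Bq (q (j : ZMod N)) r) ((r' : ℝ) / 16) ω M) :
    TX (wJ θ β q D k τ) D (q (j : ZMod N)) r ω ≤
      A0 ^ M * TX (wJ θ β q D k τ) D (q (j : ZMod N)) r' ω := by
  classical
  have hcard := card_between h0 h1 hG hq hD hS hj hsj hr'r hr hrL hM (β := β)
  unfold TX
  refine prod_cmp (fun A _ h e he => Bq_sub hr'r (h e he)) hA0 hw0 (fun A hA _ => hw1 A hA) ?_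
  convert hcard

/-- **Two scales, from below.** -/
theorem TX_low (h0 : 0 < θ) (h1 : θ ≤ Real.pi / 3) (hG : GeoN n N q τ)
    (hq : IsPolygon q) (hD : Encloses q D) (hS : SepL L N τ k) {j : ℕ} (hj : j < N)
    (hsj : Spe τ k j) {r r' : ℤ} (hr'r : r' ≤ r) (hr : 6 * r < n) (hrL : 4 * r < L)
    {c0 : ℝ} (hc0 : 0 < c0) (hc1 : c0 ≤ 1) (hw0 : ∀ A ∈ pcs ω D,
      (∀ e ∈ A, hdv e ∈ Bq (q (j : ZMod N)) r) → c0 ≤ wJ θ β q D k τ A) {M : ℕ}
    (hM : MajA (Bq (q (j : ZMod N)) r) ((r' : ℝ) / 16) ω M) :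
    c0 ^ M * TX (wJ θ β q D k τ) D (q (j : ZMod N)) r' ω ≤
      TX (wJ θ β q D k τ) D (q (j : ZMod N)) r ω := by
  classical
  have hcard := card_between h0 h1 hG hq hD hS hj hsj hr'r hr hrL hM (β := β)
  unfold TX
  refine prod_cmp_low (fun A _ h e he => Bq_sub hr'r (h e he)) hc0 hc1
    (fun A hA h => hc0.le.trans (hw0 A hA fun e he => Bq_sub hr'r (h e he)))
    (fun A hA h _ => hw0 A hA h) ?_
  convert hcard

end Vale.Agent.P167.H601.S2
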