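import Vale.Agent.P167.H601.S2.Mom

/-!
# P167, general `q`, block Q-LAM (S2): moments and radii of the local factors, main statement
-/

namespace Vale.Agent.P167.H601.S2

open Finset
open Vale.Agent.P167.E6 (IsPolygon Encloses)
open Vale.Agent.P167.BR
open Vale.Agent.P167.FK (Bq Ex Good RSW cf)
open Vale.Agent.P167.FKA (Loc Ex_mono Ex_congr Ex_const Ex_mul_left Ex_nonneg)
open Vale.Agent.P167.H562.QM (MajA OneC)
open Vale.Agent.P167.H601.LG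

variable {θ : ℝ}

/-- The constant `Y`. -/
theorem exists_Y {C1 M' b : ℝ} (hC1 : 1 ≤ C1) (hM : 0 ≤ M') (hb : 1 ≤ b) :
    ∃ Y : ℝ, 1 ≤ Y ∧ C1 ^ 2 * M' ≤ Y ^ 2 ∧ b ≤ Y ^ 4 := by
  have h0 : 0 ≤ C1 * (1 + M') := by positivity
  have hY1 : 1 ≤ C1 * (1 + M') + b := by linarith
  refine ⟨C1 * (1 + M') + b, hY1, ?_, ?_⟩
  · have h4 : (C1 * (1 + M')) ^ 2 ≤ (C1 * (1 + M') + b) ^ 2 :=
      pow_le_pow_left₀ h0 (by linarith) 2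
    have h5 : C1 ^ 2 * M' ≤ (C1 * (1 + M')) ^ 2 := by
      rw [mul_pow]
      refine mul_le_mul_of_nonneg_left ?_ (sq_nonneg _)
      nlinarith [sq_nonneg M']
    exact h5.trans h4
  · calc b ≤ (C1 * (1 + M') + b) ^ 1 := by rw [pow_one]; linarith
      _ ≤ _ := pow_le_pow_right₀ hY1 (by norm_num)

section scales

variable {n N L k : ℕ} {m₀ : ℤ} {q : ZMod N → ℤ × ℤ} {D : Finset (ℤ × ℤ)} {τ : ℕ → ℤ}
  {η : Cfg} {β c0 C1 s : ℝ} {P : Finset ℕ} {I : ℤ → Cfg → ℝ} {cI : ℤ × ℤ} {Λ : ℤ} {E : ℕ}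
  {r K : ℤ}

/-- Two consecutive scales, from above. -/
theorem TT_up (h0 : 0 < θ) (h1 : θ ≤ Real.pi / 3) (hS : Sit n N L m₀ q D k τ η)
    (hs0 : 1 / Real.sin θ + 1 / Real.sin (2 * θ) ≤ Real.exp (s / 2)) (hc0 : 0 < c0)
    (hP : ∀ j ∈ P, j < N ∧ Spe τ k j) {Q : ℝ} (hI : ExtI Q D η I cI Λ E K C1 r)
    {r1 r2 : ℤ} (h21 : r2 ≤ r1) (hr1 : r1 ≤ r) (hr2 : 1 ≤ r2) (hr : 6 * r < n) (hrL : 4 * r < L)
    (hw : Wl θ β q D k τ P c0 r) (ω : Cfg) {Nf : ℕ → ℕ}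
    (hM : ∀ j ∈ P, MajA (Bq (q (j : ZMod N)) r1) ((r2 : ℝ) / 16) ω (Nf j)) :
    TT θ β q D k τ I P r1 ω ≤ Real.exp (s / 2 * ((∑ j ∈ P, Nf j : ℕ) : ℝ)) *
      TT θ β q D k τ I P r2 ω := by
  rw [TT_eq, TT_eq]
  have h3 := PT_up h0 h1 hS hs0 hc0 hP h21 (by omega) (by omega) (hw.mono hr1) ω hM
  calc I r1 ω * PT θ β q D k τ P r1 ω
      ≤ I r2 ω * (Real.exp (s / 2 * ((∑ j ∈ P, Nf j : ℕ) : ℝ)) * PT θ β q D k τ P r2 ω) :=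
        mul_le_mul (hI.mono r2 r1 ω hr2 h21 hr1) h3 ((hw.mono hr1).pnonneg hc0.le ω) (hI.nn _ _)
    _ = _ := by ring

/-- Two consecutive scales, from below. -/
theorem TT_low (h0 : 0 < θ) (h1 : θ ≤ Real.pi / 3) (hS : Sit n N L m₀ q D k τ η)
    (hc0 : 0 < c0) (hc1 : c0 ≤ 1) (hs1 : Real.exp (-(s / 4)) ≤ c0)
    (hP : ∀ j ∈ P, j < N ∧ Spe τ k j) {Q : ℝ} (hQ : 0 < Q) (hI : ExtI Q D η I cI Λ E K C1 r)
    {r1 r2 : ℤ} (h21 : r2 ≤ r1) (hr1 : r1 ≤ r) (hK : 1 ≤ K) (hr2 : K ≤ r2)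
    (h12 : r1 ≤ 2 * E * r2)
    (hr : 6 * r < n) (hrL : 4 * r < L) (hfI : ∀ i ∈ P, (Λ + 4) * r < nm (q (i : ZMod N) - cI))
    (hw : Wl θ β q D k τ P c0 r) {Nf : ℕ → Cfg → ℕ}
    (hM : ∀ j ∈ P, ∀ ω, MajA (Bq (q (j : ZMod N)) r1) ((r2 : ℝ) / 16) ω (Nf j ω)) :
    Ex Q D η (fun ω => TT θ β q D k τ I P r2 ω *
      Real.exp (-(s / 4 * ((∑ j ∈ P, Nf j ω : ℕ) : ℝ)))) ≤
        C1 * Ex Q D η (TT θ β q D k τ I P r1) := by
  have h3 : Ex Q D η (fun ω => TT θ β q D k τ I P r2 ω *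
      Real.exp (-(s / 4 * ((∑ j ∈ P, Nf j ω : ℕ) : ℝ)))) ≤ Ex Q D η (fun ω =>
        I r2 ω * PT θ β q D k τ P r1 ω) := by
    refine Ex_mono hQ fun S _ => ?_
    have h4 := PT_low h0 h1 hS hc0 hc1 hs1 hP h21 (by omega) (by omega) (hw.mono hr1) (cf D η S)
      (fun j hj => hM j hj (cf D η S))
    have h5 := mul_le_mul_of_nonneg_left h4 (hI.nn r2 (cf D η S))
    rw [TT_eq]
    calc _ = _ := by ring
      _ ≤ _ := h5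
  refine h3.trans ?_
  refine hI.ext r2 r1 hr2 h21 hr1 h12 _ (fun ω => (hw.mono hr1).pnonneg hc0.le ω) ?_
  refine PT_off fun j hj => ?_
  have h6 := hfI j hj
  have h7 : Λ * r1 ≤ Λ * r := mul_le_mul_of_nonneg_left hr1 (by linarith [hI.one])
  have h8 : (Λ + 4) * r = Λ * r + 4 * r := by ring
  omega

end scales

/-- **(S2).** -/
theorem mom_main (h0 : 0 < θ) (h1 : θ ≤ Real.pi / 3) (hR : RSW (2 * Real.cos θ)) (ms : ℕ)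
    {c0 : ℝ} (hc0 : 0 < c0) (hc1 : c0 ≤ 1) {s : ℝ} (hs : 0 < s)
    (hs0 : 1 / Real.sin θ + 1 / Real.sin (2 * θ) ≤ Real.exp (s / 2))
    (hs1 : Real.exp (-(s / 4)) ≤ c0) :
    ∀ E0 : ℕ, ∃ E : ℕ, E0 ≤ E ∧ 2 ≤ E ∧ ∀ K0 : ℤ, ∃ K : ℤ, K0 ≤ K ∧ 1 ≤ K ∧
    ∀ C1 M : ℝ, 1 ≤ C1 → 0 ≤ M → ∃ Y : ℝ, 1 ≤ Y ∧
    ∀ {n N L k : ℕ} {m₀ : ℤ} {q : ZMod N → ℤ × ℤ} {D : Finset (ℤ × ℤ)} {τ : ℕ → ℤ} {η : Cfg}
      {β : ℝ}, Sit n N L m₀ q D k τ η → ∀ P : Finset ℕ, (∀ j ∈ P, j < N ∧ Spe τ k j) →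
      P.card ≤ ms → ∀ r : ℤ, E * K ≤ r → 24 * r < n → 16 * r < L → 4 * r ≤ m₀ →
      Wl θ β q D k τ P c0 r →
      ∀ (I : ℤ → Cfg → ℝ) (cI : ℤ × ℤ) (Λ : ℤ), ExtI (2 * Real.cos θ) D η I cI Λ E K C1 r →
      (∀ j ∈ P, (Λ + 4) * r < nm (q (j : ZMod N) - cI)) →
      ∀ N0 : Cfg → ℝ, (∀ ω, 0 ≤ N0 ω) →
      Ex (2 * Real.cos θ) D η (fun ω => TT θ β q D k τ I P (r / E) ω * Real.exp (2 * s * N0 ω)) ≤
        M * Ex (2 * Real.cos θ) D η (TT θ β q D k τ I P (r / E)) →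
      Ex (2 * Real.cos θ) D η (fun ω => TT θ β q D k τ I P r ω * Real.exp (s * N0 ω)) ≤
        Y ^ 4 * Ex (2 * Real.cos θ) D η (TT θ β q D k τ I P r) ∧
      Ex (2 * Real.cos θ) D η (TT θ β q D k τ I P (r / E)) ≤
        C1 * Y * Ex (2 * Real.cos θ) D η (TT θ β q D k τ I P r) ∧
      Ex (2 * Real.cos θ) D η (TT θ β q D k τ I P r) ≤
        Y ^ 4 * Ex (2 * Real.cos θ) D η (TT θ β q D k τ I P (r / E)) := by
  have hcos : 1 / 2 ≤ Real.cos θ := by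
    rw [← Real.cos_pi_div_three]
    exact Real.cos_le_cos_of_nonneg_of_le_pi h0.le (by linarith [Real.pi_pos]) h1
  have hQ : 1 ≤ 2 * Real.cos θ := by linarith
  obtain ⟨Q, hQd⟩ : ∃ Q : ℝ, Q = 2 * Real.cos θ := ⟨_, rfl⟩
  rw [← hQd] at hQ hR ⊢
  have hQ0 : 0 < Q := by linarith
  intro E0
  obtain ⟨ε, E, C, ρ0, hε, hE0, hE2, hεE, hC, hρ0, hCn⟩ := exists_cn hQ hR (2 * s) E0
  have hE1 : 1 ≤ E := by omega
  refine ⟨E, hE0, hE2, fun K0 => ?_⟩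
  obtain ⟨K, hK⟩ : ∃ K : ℤ, K = max K0 (max 1 ⌈ρ0⌉) := ⟨_, rfl⟩
  have hK0 : K0 ≤ K := by rw [hK]; exact le_max_left _ _
  have hK1 : 1 ≤ K := by rw [hK]; exact (le_max_left _ _).trans (le_max_right _ _)
  have hKρ : ρ0 ≤ K := by
    have : (⌈ρ0⌉ : ℝ) ≤ K := by
      exact_mod_cast (by rw [hK]; exact (le_max_right _ _).trans (le_max_right _ _))
    exact (Int.le_ceil ρ0).trans this
  obtain ⟨Z0, hZ0⟩ : ∃ Z0 : ℕ, Z0 = 4 * (2 * (2 * E * (E * K) : ℤ).toNat) ^ 2 := ⟨_, rfl⟩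
  refine ⟨K, hK0, hK1, fun C1 M hC1 hM => ?_⟩
  have hM'0 : 0 ≤ M + max 1 C ^ ms := by positivity
  obtain ⟨Y, hY1, hYM, hYb⟩ := exists_Y hC1 hM'0
    (Real.one_le_exp (by positivity : 0 ≤ s * ((ms * Z0 : ℕ) : ℝ)))
  refine ⟨Y, hY1, ?_⟩
  intro n N L k m₀ q D τ η β hS P hP hPc r hrK hrn hrL hrm hw I cI Λ hI hfI N0 hN0 hM0
  have hr0 : 0 ≤ r := le_trans (by positivity) hrK
  obtain ⟨J, hJ1, hJK, hJE⟩ := exists_last hE2 hK1 hrK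
  have hρr : ∀ j, rr r E j ≤ r := fun j => by
    have := rr_anti hr0 E (Nat.zero_le j)
    rwa [rr_zero] at this
  have hρ1 : ∀ j ≤ J, 1 ≤ rr r E j := fun j hj => (hK1.trans hJK).trans (rr_anti hr0 E hj)
  have hρK : ∀ j ≤ J, K ≤ rr r E j := fun j hj => hJK.trans (rr_anti hr0 E hj)
  have hfar : ∀ i ∈ P, ∀ j ∈ P, i ≠ j → 4 * r < nm (q (i : ZMod N) - q (j : ZMod N)) :=
    fun i hi j hj hne => spe_far hS.geo hS.sep (hP i hi).1 (hP j hj).1 hne (hP i hi).2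
      (hP j hj).2 (by omega) (by omega)
  obtain ⟨Nf, hN1, hN2, hN3⟩ := nums hCn hE1 hS hr0 hrm hK1 hKρ hJK hJE hZ0
  -- the numbers
  obtain ⟨Nn, hNn⟩ : ∃ Nn : ℕ → Cfg → ℝ, Nn = fun j ω => if j = 0 then N0 ω else
      ((∑ i ∈ P, Nf i j ω : ℕ) : ℝ) := ⟨_, rfl⟩
  have hNn0 : ∀ ω, Nn 0 ω = N0 ω := fun ω => by rw [hNn]; exact if_pos rfl
  have hNns : ∀ j ω, Nn (j + 1) ω = ((∑ i ∈ P, Nf i (j + 1) ω : ℕ) : ℝ) := fun j ω => by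
    rw [hNn]; exact if_neg (Nat.succ_ne_zero j)
  have hT0 : ∀ j ω, 0 ≤ TT θ β q D k τ I P (rr r E j) ω := fun j ω =>
    mul_nonneg (hI.nn _ _) ((hw.mono (hρr j)).pnonneg hc0.le ω)
  have hup : ∀ j < J, ∀ ω, TT θ β q D k τ I P (rr r E j) ω ≤
      Real.exp (s / 2 * Nn (j + 1) ω) * TT θ β q D k τ I P (rr r E (j + 1)) ω := by
    intro j hj ω
    rw [hNns]
    exact TT_up h0 h1 hS hs0 hc0 hP hI (rr_le hr0 E j) (hρr j) (hρ1 _ hj) (by omega) (by omega)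
      hw ω fun i _ => hN1 i j hj ω
  have hlow : ∀ j < J, Ex Q D η (fun ω => TT θ β q D k τ I P (rr r E (j + 1)) ω *
      Real.exp (-(s / 4 * Nn (j + 1) ω))) ≤
        C1 * Ex Q D η (TT θ β q D k τ I P (rr r E j)) := by
    intro j hj
    simp only [hNns]
    exact TT_low h0 h1 hS hc0 hc1 hs1 hP hQ0 hI (rr_le hr0 E j) (hρr j) hK1 (hρK _ hj)
      (rr_up hE1 (hρ1 _ hj)) (by omega) (by omega) hfI hw fun i _ => hN1 i j hj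
  have e1 : rr r E 1 = r / E := by rw [show (1 : ℕ) = 0 + 1 by rfl, rr_succ, rr_zero]
  have e0 : rr r E 0 = r := rr_zero r E
  have hmom : ∀ j < J, Ex Q D η (fun ω => TT θ β q D k τ I P (rr r E (j + 1)) ω *
      Real.exp (2 * s * Nn j ω)) ≤
        (M + max 1 C ^ ms) * Ex Q D η (TT θ β q D k τ I P (rr r E (j + 1))) := by
    intro j hj
    have hpos : 0 ≤ Ex Q D η (TT θ β q D k τ I P (rr r E (j + 1))) :=
      Ex_nonneg hQ0 fun _ _ => hT0 _ _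
    rcases j with _ | j
    · rw [zero_add, e1] at hpos ⊢
      simp only [hNn0]
      refine hM0.trans (mul_le_mul_of_nonneg_right ?_ hpos)
      have : 0 ≤ max 1 C ^ ms := by positivity
      linarith
    · simp only [hNns]
      refine (mom_mid hQ0 hε hE1 hεE hC hI hfar hfI hPc (hT0 _) hr0 (hρ1 _ hj)
        (Nf := fun i => Nf i (j + 1)) fun i _ => hN2 i j hj).trans ?_
      refine mul_le_mul_of_nonneg_right ?_ hpos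
      linarith
  have hbase : Ex Q D η (fun ω => TT θ β q D k τ I P (rr r E J) ω * Real.exp (s * Nn J ω)) ≤
      Y ^ 4 * Ex Q D η (TT θ β q D k τ I P (rr r E J)) := by
    rw [← Ex_mul_left]
    refine Ex_mono hQ0 fun S _ => ?_
    rw [mul_comm]
    refine mul_le_mul_of_nonneg_right (le_trans (Real.exp_le_exp.2 ?_) hYb) (hT0 _ _)
    refine mul_le_mul_of_nonneg_left ?_ hs.le
    obtain ⟨i, rfl⟩ := Nat.exists_eq_succ_of_ne_zero (by omega : J ≠ 0)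
    rw [hNns]
    have h3 : ∑ a ∈ P, Nf a (i + 1) (cf D η S) ≤ ms * Z0 := by
      calc ∑ a ∈ P, Nf a (i + 1) (cf D η S) ≤ ∑ _a ∈ P, Z0 :=
            sum_le_sum fun a _ => hN3 a _
        _ = P.card * Z0 := by rw [sum_const, smul_eq_mul]
        _ ≤ ms * Z0 := Nat.mul_le_mul_right _ hPc
    exact_mod_cast h3
  have hmain := radii (Q := Q) (D := D) (η := η) hQ0 J
    (T := fun j => TT θ β q D k τ I P (rr r E j)) (N := Nn) (s := s) (M := M + max 1 C ^ ms)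
    (C1 := C1) (Y := Y) hT0 hC1 hY1 hM'0 hYM hup hlow hmom hbase
  have m0 := hmain 0 (Nat.zero_le _)
  have m1 := hmain 1 hJ1
  rw [zero_add, e1, e0] at m0
  simp only [hNn0] at m0
  refine ⟨m0.1, m0.2 (by omega), ?_⟩
  rw [e1] at m1
  have h3 := hup 0 (by omega)
  rw [zero_add, e1, e0] at h3
  refine le_trans (Ex_mono hQ0 fun S _ => (h3 (cf D η S)).trans ?_) m1.1
  rw [mul_comm]
  refine mul_le_mul_of_nonneg_left (Real.exp_le_exp.2 ?_) (by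
    have := hT0 1 (cf D η S)
    rwa [e1] at this)
  have h4 : 0 ≤ Nn 1 (cf D η S) := by
    rw [show (1 : ℕ) = 0 + 1 by rfl, hNns]
    positivity
  have h5 := mul_nonneg hs.le h4
  linarith

end Vale.Agent.P167.H601.S2
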