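import Vale.Agent.P167.H601.S2.Cmp

/-!
# P167, general `q`, block Q-LAM (S2): moments and radii of the local factors

`mom_main`: the exponential moments of the number of the large strands with respect to the product of
the local factors, and the comparison of two radii. No monotonicity, no alternation of the strands.
-/

namespace Vale.Agent.P167.H601.S2

open Finset
open Vale.Agent.P167.E6 (IsPolygon Encloses)
open Vale.Agent.P167.BR
open Vale.Agent.P167.FK (Bq Ex Good RSW cf)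
open Vale.Agent.P167.FKA (Loc Ex_mono Ex_congr Ex_const Ex_mul_left Ex_nonneg)
open Vale.Agent.P167.H562.QM (MajA OneC)
open Vale.Agent.P167.H975 (TX TX_loc)
open Vale.Agent.P167.H601.LG

variable {θ : ℝ}

/-- The extra factor: local at `cI`, decreasing in the radius, and comparable in mean. -/
structure ExtI (Q : ℝ) (D : Finset (ℤ × ℤ)) (η : Cfg) (I : ℤ → Cfg → ℝ) (cI : ℤ × ℤ) (Λ : ℤ)
    (E : ℕ) (K : ℤ) (C1 : ℝ) (r : ℤ) : Prop where
  one : 1 ≤ Λ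
  nn : ∀ r' ω, 0 ≤ I r' ω
  mono : ∀ r' r'' ω, 1 ≤ r' → r' ≤ r'' → r'' ≤ r → I r'' ω ≤ I r' ω
  loc : ∀ r', 1 ≤ r' → r' ≤ r → Loc (Bq cI r') (I r')
  ext : ∀ r' r'', K ≤ r' → r' ≤ r'' → r'' ≤ r → r'' ≤ 2 * E * r' → ∀ F : Cfg → ℝ,
    (∀ ω, 0 ≤ F ω) → Off D (fun v => nm (v - cI) ≤ Λ * r'') F →
      Ex Q D η (fun ω => I r' ω * F ω) ≤ C1 * Ex Q D η (fun ω => I r'' ω * F ω)

section scales

variable {n N L k : ℕ} {m₀ : ℤ} {q : ZMod N → ℤ × ℤ} {D : Finset (ℤ × ℤ)} {τ : ℕ → ℤ}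
  {η : Cfg} {β c0 C1 s : ℝ} {P : Finset ℕ} {I : ℤ → Cfg → ℝ} {cI : ℤ × ℤ} {Λ : ℤ} {E : ℕ}
  {r K : ℤ} {j : ℕ}

/-- The product of the local factors does not read the annuli of radius between `ε ρ` and `2 r`. -/
theorem TT_off {Q : ℝ} (hI : ExtI Q D η I cI Λ E K C1 r) (hf : ∀ i ∈ P, ∀ j ∈ P, i ≠ j →
      4 * r < nm (q (i : ZMod N) - q (j : ZMod N)))
    (hfI : ∀ i ∈ P, (Λ + 4) * r < nm (q (i : ZMod N) - cI)) {a : ℕ} (ha : a ∈ P) {r' : ℤ}
    (h1 : 1 ≤ r') (hr : r' ≤ r) {x y : ℝ} (hx : (r' : ℝ) ≤ x) (hy : y ≤ 2 * r) :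
    Off D (Rg (q (a : ZMod N)) x y) (TT θ β q D k τ I P r') := by
  intro ω ω' hh
  have hΛr : r ≤ Λ * r := le_mul_of_one_le_left (by omega) hI.one
  have hb : ∀ b ∈ P, TX (wJ θ β q D k τ) D (q (b : ZMod N)) r' ω =
      TX (wJ θ β q D k τ) D (q (b : ZMod N)) r' ω' := by
    intro b hb
    refine TX_loc _ _ _ _ ω ω' fun v hv => hh v ?_
    rintro ⟨-, hv1, hv2⟩
    have h5 := nm_of_Bq (mem_inter.1 hv).1
    by_cases hab : a = b
    · subst hab
      have h6 : (nm (v - q (a : ZMod N)) : ℝ) ≤ r' := by exact_mod_cast h5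
      linarith
    · have h6 := hf a ha b hb hab
      have h7 := nm_tri' (q (a : ZMod N)) v (q (b : ZMod N))
      have h8 := nm_comm (q (a : ZMod N)) v
      have h10 : (nm (v - q (a : ZMod N)) : ℝ) ≤ 2 * r := hv2.trans hy
      have h11 : nm (v - q (a : ZMod N)) ≤ 2 * r := by exact_mod_cast h10
      omega
  have hI' : I r' ω = I r' ω' := by
    refine hI.loc _ h1 hr ω ω' fun v hv => hh v ?_
    rintro ⟨-, hv1, hv2⟩
    have h5 := nm_of_Bq hv
    have h6 := hfI a ha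
    have h7 := nm_tri' (q (a : ZMod N)) v cI
    have h8 := nm_comm (q (a : ZMod N)) v
    have h10 : (nm (v - q (a : ZMod N)) : ℝ) ≤ 2 * r := hv2.trans hy
    have h11 : nm (v - q (a : ZMod N)) ≤ 2 * r := by exact_mod_cast h10
    have h12 : (Λ + 4) * r = Λ * r + 4 * r := by ring
    omega
  unfold TT
  rw [hI', prod_congr rfl hb]

/-- The moments at the scales `1, …, J - 1`. -/
theorem mom_mid {Q ε C : ℝ} {ms : ℕ} (hQ : 0 < Q) (hε : 0 < ε) (hE : 1 ≤ E) (hεE : 1 ≤ ε * E)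
    (hC : 0 < C) (hI : ExtI Q D η I cI Λ E K C1 r) (hf : ∀ i ∈ P, ∀ j ∈ P, i ≠ j →
      4 * r < nm (q (i : ZMod N) - q (j : ZMod N)))
    (hfI : ∀ i ∈ P, (Λ + 4) * r < nm (q (i : ZMod N) - cI)) (hPc : P.card ≤ ms)
    (hT0 : ∀ ω, 0 ≤ TT θ β q D k τ I P (rr r E (j + 2)) ω) {Nf : ℕ → Cfg → ℕ}
    (hr0 : 0 ≤ r) (h1 : 1 ≤ rr r E (j + 2))
    (hN : ∀ i ∈ P, Mid Q ε C s q D η i (rr r E (j + 1)) (rr r E j) (Nf i)) :
    Ex Q D η (fun ω => TT θ β q D k τ I P (rr r E (j + 2)) ω *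
      Real.exp (s * ((∑ i ∈ P, Nf i ω : ℕ) : ℝ))) ≤
        max 1 C ^ ms * Ex Q D η (TT θ β q D k τ I P (rr r E (j + 2))) := by
  have hρr : ∀ j, rr r E j ≤ r := fun j => by
    have := rr_anti hr0 E (Nat.zero_le j)
    rwa [rr_zero] at this
  have hdn := rr_down (r := r) hE (j + 1)
  have hdn' : (rr r E (j + 2) : ℝ) ≤ ε * rr r E (j + 1) := by
    have h3 : ((E : ℤ) : ℝ) * (rr r E (j + 2) : ℝ) ≤ (rr r E (j + 1) : ℝ) := by
      exact_mod_cast hdn
    have h4 : (0 : ℝ) ≤ rr r E (j + 2) := by exact_mod_cast rr_nonneg hr0 E _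
    push_cast at h3
    calc (rr r E (j + 2) : ℝ) = 1 * (rr r E (j + 2) : ℝ) := (one_mul _).symm
      _ ≤ (ε * E) * (rr r E (j + 2) : ℝ) := mul_le_mul_of_nonneg_right hεE h4
      _ = ε * (E * (rr r E (j + 2) : ℝ)) := by ring
      _ ≤ ε * rr r E (j + 1) := mul_le_mul_of_nonneg_left h3 hε.le
  have hρi : (1 / 16 * (rr r E (j + 1) : ℝ) + (rr r E j : ℝ)) ≤ 2 * r := by
    have h3 : (rr r E (j + 1) : ℝ) ≤ r := by exact_mod_cast hρr (j + 1)
    have h4 : (rr r E j : ℝ) ≤ r := by exact_mod_cast hρr j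
    have h5 : (0 : ℝ) ≤ r := by exact_mod_cast hr0
    linarith
  have h3 := mom_prod (Q := Q) (D := D) (η := η) P Nf
    (T := TT θ β q D k τ I P (rr r E (j + 2))) hT0
    (R := fun a => Rg (q (a : ZMod N)) (ε * rr r E (j + 1))
      (1 / 16 * rr r E (j + 1) + rr r E j)) (C := C) (s := s) hC.le
    (fun a ha => TT_off hI hf hfI ha h1 (hρr _) hdn' hρi)
    (fun a ha => (hN a ha).1)
    (fun a ha b hb hab v hv hv' => by
      have h6 := hf a ha b hb hab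
      have h7 := nm_tri' (q (a : ZMod N)) v (q (b : ZMod N))
      have h8 := nm_comm (q (a : ZMod N)) v
      have h10 : (nm (v - q (a : ZMod N)) : ℝ) ≤ 2 * r := hv.2.trans hρi
      have h11 : nm (v - q (a : ZMod N)) ≤ 2 * r := by exact_mod_cast h10
      have h12 : (nm (v - q (b : ZMod N)) : ℝ) ≤ 2 * r := hv'.2.trans hρi
      have h13 : nm (v - q (b : ZMod N)) ≤ 2 * r := by exact_mod_cast h12
      omega)
    (fun a ha => (hN a ha).2)
  refine h3.trans (mul_le_mul_of_nonneg_right ?_ (Ex_nonneg hQ fun _ _ => hT0 _))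
  exact (pow_le_pow_left₀ hC.le (le_max_right _ _) _).trans
    (pow_le_pow_right₀ (le_max_left _ _) hPc)

end scales

end Vale.Agent.P167.H601.S2
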