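import Vale.Agent.P167.H601.S2.Abs
import Vale.Agent.P167.H506.Q.Loc1

/-!
# P167, general `q`, block Q-LAM (S2): numbers of the large strands around several points
-/

namespace Vale.Agent.P167.H601.S2

open Finset Vale.Agent.P167.FK Vale.Agent.P167.FKA
open Vale.Agent.P167.H166 (bxx mem_bxx)
open Vale.Agent.P167.H562.QM (MajA OneC Nr)
open Vale.Agent.P167.H398.Q (macro_F)
open Vale.Agent.P167.H506.Q (nr_bq nm_of_bq)

variable {Q : ℝ} {D : Finset (ℤ × ℤ)} {η : Cfg}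

/-- The annulus between the radii `a` and `b`. -/
def Rg (c : ℤ × ℤ) (a b : ℝ) (v : ℤ × ℤ) : Prop := a < (nm (v - c) : ℝ) ∧ (nm (v - c) : ℝ) ≤ b

/-- `G` does not read the squares of `D` in `R`. -/
def Off (D : Finset (ℤ × ℤ)) (R : ℤ × ℤ → Prop) (G : Cfg → ℝ) : Prop :=
  ∀ ω ω' : Cfg, (∀ v, ¬ (v ∈ D ∧ R v) → ω v = ω' v) → G ω = G ω'

theorem Off.mul {R : ℤ × ℤ → Prop} {F G : Cfg → ℝ} (hF : Off D R F) (hG : Off D R G) :
    Off D R (fun ω => F ω * G ω) := fun ω ω' h => by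
  show F ω * G ω = F ω' * G ω'
  rw [hF ω ω' h, hG ω ω' h]

theorem off_of_loc {R : ℤ × ℤ → Prop} {W : Finset (ℤ × ℤ)} {G : Cfg → ℝ} (hG : Loc W G)
    (h : ∀ v ∈ W, ¬ R v) : Off D R G := fun ω ω' h' => hG ω ω' fun v hv => h' v fun h'' =>
  h v hv h''.2

/-- **Large segments around one point.** -/
theorem num_pt (hQ : 1 ≤ Q) (h : RSW Q) : ∃ e1 : ℝ, 0 < e1 ∧
    ∀ κ R s : ℝ, 0 < κ → 0 ≤ R → ∃ C ρ0 : ℝ, 0 < C ∧ 0 < ρ0 ∧ ∀ ρ : ℝ, ρ0 ≤ ρ →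
      ∀ (c : ℤ × ℤ) (Z : ℤ), (Z : ℝ) ≤ R * ρ → ∃ N : Cfg → ℕ,
      (∀ ω ω' : Cfg, (∀ v, Rg c (e1 * κ / (1 + |s|) * ρ) (κ * ρ + Z) v → ω v = ω' v) →
        N ω = N ω') ∧
      (∀ ω, MajA (Bq c Z) (κ * ρ) ω (N ω)) ∧
      ∀ (D : Finset (ℤ × ℤ)) (η : Cfg), Good η →
        (∀ (y : ℤ × ℤ) (a : ℤ), 1 ≤ a → (a : ℝ) ≤ κ * ρ / 4 → (nm (y - c) : ℝ) ≤ κ * ρ + Z →
          OneC y a D η) →
        ∀ G : Cfg → ℝ, (∀ ω, 0 ≤ G ω) → Off D (Rg c (e1 * κ / (1 + |s|) * ρ) (κ * ρ + Z)) G →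
        Ex Q D η (fun ω => G ω * Real.exp (s * (N ω : ℝ))) ≤ C * Ex Q D η G := by
  obtain ⟨e1, he1, H⟩ := macro_F hQ h 1
  refine ⟨e1, he1, fun κ R s hκ hR => ?_⟩
  obtain ⟨C, ρ0, hC, hρ0, H⟩ := H κ R s hκ hR
  refine ⟨C, ρ0, hC, hρ0, fun ρ hρ c Z hZ => ?_⟩
  obtain ⟨N, h1, h2, h3⟩ := H ρ hρ c (Bq c Z) (fun v hv => by
    have : (nm (v - c) : ℝ) ≤ Z := by exact_mod_cast nm_of_bq hv
    linarith) (fun _ => c)
  have key : ∀ v, (Nr (Bq c Z) (κ * ρ) v ∧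
      ∀ i : Fin 1, e1 * κ / (1 + |s|) * ρ < (nm (v - (fun _ => c) i) : ℝ)) →
      Rg c (e1 * κ / (1 + |s|) * ρ) (κ * ρ + Z) v := fun v hv => ⟨hv.2 0, nr_bq hv.1⟩
  refine ⟨N, fun ω ω' hh => ?_, h2, fun D η hη hone G hG0 hG => ?_⟩
  · exact h1 ω ω' fun v hv hv' => hh v (key v ⟨hv, hv'⟩)
  · refine h3 D η hη (fun y a ha ha' hy => hone y a ha ha' ?_) G hG0 fun ω ω' hh => ?_
    · have h5 : y ∈ bxx y a := by
        rw [mem_bxx, sub_self]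
        show max |(0 : ℤ)| |(0 : ℤ)| ≤ a
        simp
        omega
      exact (key y (hy y h5)).2
    · exact hG ω ω' fun v hv => hh v fun h' => hv ⟨h'.1, key v h'.2⟩

/-- **Several points.** -/
theorem mom_prod {ι : Type*} (P : Finset ι) (Nf : ι → Cfg → ℕ) {T : Cfg → ℝ}
    (hT0 : ∀ ω, 0 ≤ T ω) {R : ι → ℤ × ℤ → Prop} {C s : ℝ} (hC : 0 ≤ C)
    (hT : ∀ i ∈ P, Off D (R i) T)
    (hN : ∀ i ∈ P, ∀ ω ω' : Cfg, (∀ v, R i v → ω v = ω' v) → Nf i ω = Nf i ω')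
    (hR : ∀ i ∈ P, ∀ j ∈ P, i ≠ j → ∀ v, R i v → ¬ R j v)
    (hstep : ∀ i ∈ P, ∀ G : Cfg → ℝ, (∀ ω, 0 ≤ G ω) → Off D (R i) G →
      Ex Q D η (fun ω => G ω * Real.exp (s * (Nf i ω : ℝ))) ≤ C * Ex Q D η G) :
    Ex Q D η (fun ω => T ω * Real.exp (s * ((∑ i ∈ P, Nf i ω : ℕ) : ℝ))) ≤
      C ^ P.card * Ex Q D η T := by
  classical
  have key : ∀ P' ⊆ P, Ex Q D η (fun ω => T ω * Real.exp (s * ((∑ i ∈ P', Nf i ω : ℕ) : ℝ))) ≤
      C ^ P'.card * Ex Q D η T := by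
    intro P'
    induction P' using Finset.induction_on with
    | empty =>
      intro _
      simp
    | insert i P' hi ih =>
      intro hsub
      have hiP := hsub (mem_insert_self i P')
      have hP' : P' ⊆ P := fun j hj => hsub (mem_insert_of_mem hj)
      have h1 := hstep i hiP (fun ω => T ω * Real.exp (s * ((∑ i ∈ P', Nf i ω : ℕ) : ℝ)))
        (fun ω => mul_nonneg (hT0 ω) (Real.exp_pos _).le) (by
          refine Off.mul (hT i hiP) fun ω ω' h => ?_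
          show Real.exp (s * ((∑ i ∈ P', Nf i ω : ℕ) : ℝ)) =
            Real.exp (s * ((∑ i ∈ P', Nf i ω' : ℕ) : ℝ))
          congr 3
          refine sum_congr rfl fun j hj => hN j (hP' hj) ω ω' fun v hv => h v fun hv' => ?_
          exact hR j (hP' hj) i hiP (fun e => hi (e ▸ hj)) v hv hv'.2)
      rw [card_insert_of_notMem hi, pow_succ, mul_comm (C ^ P'.card), mul_assoc]
      refine le_trans (le_of_eq ?_) (h1.trans (mul_le_mul_of_nonneg_left (ih hP') hC))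
      refine Ex_congr fun S _ => ?_
      rw [sum_insert hi, mul_assoc, ← Real.exp_add]
      congr 2
      push_cast
      ring
  exact key P (Subset.refl P)

end Vale.Agent.P167.H601.S2
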