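import Vale.Agent.P167.H601.S2.Det
import Vale.Agent.P167.H601.S2.Num

/-!
# P167, general `q`, block Q-LAM (S2): data and radii

`TT I P r`: product of the local factors `TX` of radius `r` over the points of `P` and of the extra factor
`I r`. `rr r E j`: the radii `r / E ^ j`.
-/

namespace Vale.Agent.P167.H601.S2

open Finset
open Vale.Agent.P167.E6 (IsPolygon Encloses)
open Vale.Agent.P167.BR
open Vale.Agent.P167.FK (Bq Ex Good RSW)
open Vale.Agent.P167.FKA (Loc Ex_mono Ex_congr Ex_const Ex_mul_left Ex_nonneg)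
open Vale.Agent.P167.H562.QM (MajA OneC)
open Vale.Agent.P167.H975 (TX TX_loc)
open Vale.Agent.P167.H506.Q (maj_small)
open Vale.Agent.P167.H601.LG

/-- A polygon with separated special points and regular boundary. -/
structure Sit (n N L : ℕ) (m₀ : ℤ) (q : ZMod N → ℤ × ℤ) (D : Finset (ℤ × ℤ)) (k : ℕ) (τ : ℕ → ℤ)
    (η : Cfg) : Prop where
  geo : GeoN n N q τ
  poly : IsPolygon q
  enc : Encloses q D
  sep : SepL L N τ k
  good : Good η
  one : ∀ (x : ℤ × ℤ) (R : ℤ), 1 ≤ R → R ≤ m₀ → (∃ v ∈ D, nm (x - v) ≤ m₀) → OneC x R D η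

/-- The product of the local factors. -/
noncomputable def TT (θ β : ℝ) {N : ℕ} (q : ZMod N → ℤ × ℤ) (D : Finset (ℤ × ℤ)) (k : ℕ)
    (τ : ℕ → ℤ) (I : ℤ → Cfg → ℝ) (P : Finset ℕ) (r : ℤ) (ω : Cfg) : ℝ :=
  I r ω * ∏ j ∈ P, TX (wJ θ β q D k τ) D (q (j : ZMod N)) r ω

/-! ### radii -/

/-- The radii. -/
def rr (r : ℤ) (E : ℕ) (j : ℕ) : ℤ := r / (E : ℤ) ^ j

theorem rr_zero (r : ℤ) (E : ℕ) : rr r E 0 = r := by simp [rr]

theorem rr_succ (r : ℤ) (E : ℕ) (j : ℕ) : rr r E (j + 1) = rr r E j / E := by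
  unfold rr
  rw [pow_succ, Int.ediv_ediv_of_nonneg (by positivity)]

theorem rr_nonneg {r : ℤ} (hr : 0 ≤ r) (E j : ℕ) : 0 ≤ rr r E j :=
  Int.ediv_nonneg hr (by positivity)

theorem rr_le {r : ℤ} (hr : 0 ≤ r) (E : ℕ) (j : ℕ) : rr r E (j + 1) ≤ rr r E j := by
  rw [rr_succ]
  exact Int.ediv_le_self _ (rr_nonneg hr E j)

theorem rr_anti {r : ℤ} (hr : 0 ≤ r) (E : ℕ) {i j : ℕ} (h : i ≤ j) :
    rr r E j ≤ rr r E i := by
  obtain ⟨m, rfl⟩ := Nat.exists_eq_add_of_le h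
  clear h
  induction m with
  | zero => exact le_rfl
  | succ m ih => exact (rr_le hr E _).trans ih

theorem rr_up {r : ℤ} {E : ℕ} (hE : 1 ≤ E) {j : ℕ} (h : 1 ≤ rr r E (j + 1)) :
    rr r E j ≤ 2 * E * rr r E (j + 1) := by
  rw [rr_succ] at h ⊢
  have hE0 : (0 : ℤ) < E := by exact_mod_cast hE
  have h1 := Int.lt_ediv_add_one_mul_self (rr r E j) hE0
  have h2 : (E : ℤ) ≤ E * (rr r E j / E) := le_mul_of_one_le_right hE0.le h
  nlinarith

theorem rr_down {r : ℤ} {E : ℕ} (hE : 1 ≤ E) (j : ℕ) :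
    (E : ℤ) * rr r E (j + 1) ≤ rr r E j := by
  rw [rr_succ]
  exact Int.mul_ediv_self_le (by omega)

/-- The last radius. -/
theorem exists_last {r K : ℤ} {E : ℕ} (hE : 2 ≤ E) (hK : 1 ≤ K) (hr : E * K ≤ r) :
    ∃ J : ℕ, 1 ≤ J ∧ K ≤ rr r E J ∧ rr r E J < E * K := by
  classical
  have hE0 : (0 : ℤ) < E := by exact_mod_cast (by omega : 0 < E)
  have hr0 : 0 ≤ r := le_trans (by positivity) hr
  have hex : ∃ j, rr r E j < K := by
    refine ⟨r.toNat, ?_⟩
    have h1 : r < (E : ℤ) ^ r.toNat := by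
      have h2 : r.toNat < E ^ r.toNat := Nat.lt_pow_self (by omega)
      have h3 : ((r.toNat : ℕ) : ℤ) < ((E ^ r.toNat : ℕ) : ℤ) := by exact_mod_cast h2
      rw [Int.toNat_of_nonneg hr0] at h3
      push_cast at h3
      exact h3
    unfold rr
    rw [Int.ediv_eq_zero_of_lt hr0 h1]
    omega
  have hmin := fun j (hj : j < Nat.find hex) => Nat.find_min hex hj
  have hspec := Nat.find_spec hex
  set J' := Nat.find hex with hJ'
  have h1 : K ≤ rr r E 1 := by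
    rw [show (1 : ℕ) = 0 + 1 by rfl, rr_succ, rr_zero, Int.le_ediv_iff_mul_le hE0]
    linarith
  have h2 : K ≤ rr r E 0 := by
    rw [rr_zero]
    nlinarith
  have hJ2 : 2 ≤ J' := by
    by_contra hlt
    push Not at hlt
    rcases (by omega : J' = 0 ∨ J' = 1) with h | h <;> rw [h] at hspec <;> omega
  refine ⟨J' - 1, by omega, ?_, ?_⟩
  · have := hmin (J' - 1) (by omega)
    omega
  · have h3 : rr r E (J' - 1 + 1) < K := by rwa [show J' - 1 + 1 = J' by omega]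
    rw [rr_succ, Int.ediv_lt_iff_lt_mul hE0] at h3
    linarith

/-! ### the main statement -/

variable {θ : ℝ}

/-- A square of the domain next to a boundary site. -/
theorem exists_near {N : ℕ} {q : ZMod N → ℤ × ℤ} {D : Finset (ℤ × ℤ)} (hq : IsPolygon q)
    (hD : Encloses q D) (i : ZMod N) : ∃ v ∈ D, nm (q i - v) ≤ 1 := by
  have h1 : nm (hdv (be q i) - q i) ≤ 1 := nm_be i
  have h2 : nm (tlv (be q i) - q i) ≤ 1 := by
    unfold be
    by_cases h : Even ((q i).1 + (q i).2)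
    · rw [(ce_even h _).2.2.2]
      exact nm_face _ _
    · rw [(ce_odd h _).2.2.1]
      exact nm_face _ _
  rw [nm_comm] at h1 h2
  rcases be_bd hq hD i with ⟨h3, -⟩ | ⟨h3, -⟩
  · exact ⟨_, h3, h1⟩
  · exact ⟨_, h3, h2⟩

theorem one_le_A0 (h0 : 0 < θ) (h1 : θ ≤ Real.pi / 3) :
    1 ≤ 1 / Real.sin θ + 1 / Real.sin (2 * θ) := by
  have hs1 := sin_pos' h0 h1
  have hs2 := sin2_pos h0 h1
  have e2 : 0 < 1 / Real.sin (2 * θ) := by positivity
  have h3 : 1 ≤ 1 / Real.sin θ := by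
    rw [le_div_iff₀ hs1, one_mul]
    exact Real.sin_le_one _
  linarith

end Vale.Agent.P167.H601.S2
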